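import Mathlib

/-!
P219: the scalar comparison for Jacobi fields vanishing at time zero in nonpositive curvature.
Here `g = |J|²`, `f = G(DJ, J)` and `m = |DJ|²`.
-/

namespace Vale.Agent.P219.CH

open Filter Set
open scoped Topology

theorem jacobi_scalar {f g f' m : ℝ → ℝ} {c : ℝ} (hg : ∀ t, HasDerivAt g (2 * f t) t)
    (hf : ∀ t, HasDerivAt f (f' t) t) (hm0 : ∀ t, 0 ≤ m t) (hm : ∀ t, m t ≤ f' t)
    (hcs : ∀ t, f t ^ 2 ≤ g t * m t) (f0 : f 0 = 0) (hc : 0 < c)
    (hlg : Tendsto (fun t => g t / t ^ 2) (𝓝[>] 0) (𝓝 c))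
    (hlf : Tendsto (fun t => f t / t) (𝓝[>] 0) (𝓝 c)) :
    c ≤ g 1 ∧ g 1 ≤ f 1 := by
  have hfm : Monotone f := monotone_of_deriv_nonneg (fun t => (hf t).differentiableAt)
    fun t => by rw [(hf t).deriv]; exact (hm0 t).trans (hm t)
  have hgm : MonotoneOn g (Ici 0) := by
    refine monotoneOn_of_hasDerivWithinAt_nonneg (convex_Ici 0)
      (fun t _ => (hg t).continuousAt.continuousWithinAt) (fun t _ => (hg t).hasDerivWithinAt)
      fun t ht => ?_
    rw [interior_Ici] at ht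
    have := hfm (le_of_lt ht)
    linarith
  have gpos : ∀ t, 0 < t → 0 < g t := by
    intro t ht
    obtain ⟨s, hs, hs1, hs0⟩ := ((hlg.eventually (eventually_gt_nhds hc)).and
      ((Ioo_mem_nhdsGT ht : ∀ᶠ s in 𝓝[>] (0 : ℝ), s ∈ Ioo 0 t))).exists
    have : 0 < g s := by
      rcases div_pos_iff.1 hs with h | h
      · exact h.1
      · exact absurd h.2 (not_lt.2 (sq_nonneg s))
    exact this.trans_le (hgm (mem_Ici.2 hs1.le) (mem_Ici.2 ht.le) hs0.le)
  set M : ℝ → ℝ := fun t => (t * f t - g t) / Real.sqrt (g t) with hM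
  have hMd : ∀ t, 0 < t → ∃ d, 0 ≤ d ∧ HasDerivAt M d t := by
    intro t ht
    have hgt := gpos t ht
    have hsq := Real.mul_self_sqrt hgt.le
    have hs := Real.sqrt_pos.2 hgt
    refine ⟨_, ?_, (((hasDerivAt_id t).mul (hf t)).sub (hg t)).div ((hg t).sqrt hgt.ne') hs.ne'⟩
    simp only [id, one_mul, Pi.sub_apply, Pi.mul_apply]
    refine div_nonneg ?_ (sq_nonneg _)
    have e : (f t + t * f' t - 2 * f t) * Real.sqrt (g t) -
        (t * f t - g t) * (2 * f t / (2 * Real.sqrt (g t))) =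
        t * (f' t * g t - f t ^ 2) / Real.sqrt (g t) := by
      field_simp
      rw [Real.sq_sqrt hgt.le]
      ring
    rw [e]
    refine div_nonneg (mul_nonneg ht.le ?_) hs.le
    nlinarith [hcs t, mul_le_mul_of_nonneg_left (hm t) hgt.le]
  have hMm : MonotoneOn M (Ioi 0) := by
    refine monotoneOn_of_deriv_nonneg (convex_Ioi 0) (fun t ht => ?_) (fun t ht => ?_) fun t ht => ?_
    · obtain ⟨d, -, h⟩ := hMd t ht
      exact h.continuousAt.continuousWithinAt
    · rw [interior_Ioi] at ht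
      obtain ⟨d, -, h⟩ := hMd t ht
      exact h.differentiableAt.differentiableWithinAt
    · rw [interior_Ioi] at ht
      obtain ⟨d, hd, h⟩ := hMd t ht
      rwa [h.deriv]
  have hMlim : Tendsto M (𝓝[>] 0) (𝓝 0) := by
    have hsc : 0 < Real.sqrt c := Real.sqrt_pos.2 hc
    have hid : Tendsto (fun t : ℝ => t) (𝓝[>] (0 : ℝ)) (𝓝 0) :=
      tendsto_id.mono_left nhdsWithin_le_nhds
    have h1 := (hid.mul (hlf.sub hlg)).div
      ((Real.continuous_sqrt.tendsto c).comp hlg) hsc.ne'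
    rw [sub_self, mul_zero, zero_div] at h1
    refine h1.congr' ?_
    filter_upwards [self_mem_nhdsWithin] with t (ht : 0 < t)
    have hgt := gpos t ht
    have hs := Real.sqrt_pos.2 hgt
    simp only [M, Function.comp_apply, Pi.div_apply]
    rw [Real.sqrt_div hgt.le, Real.sqrt_sq ht.le]
    field_simp
  have hMnn : ∀ t, 0 < t → 0 ≤ t * f t - g t := by
    intro t ht
    have h : 0 ≤ M t := le_of_tendsto hMlim
      (mem_of_superset (Ioo_mem_nhdsGT ht) fun s hs => hMm hs.1 ht hs.2.le)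
    rcases div_nonneg_iff.1 h with h' | h'
    · exact h'.1
    · exact absurd h'.2 (not_le.2 (Real.sqrt_pos.2 (gpos t ht)))
  set k : ℝ → ℝ := fun t => g t / t ^ 2 with hk
  have hkd : ∀ t, 0 < t → HasDerivAt k (2 * (t * f t - g t) / t ^ 3) t := by
    intro t ht
    refine ((hg t).div ((hasDerivAt_id t).pow 2) (pow_ne_zero 2 ht.ne')).congr_deriv ?_
    simp only [id, mul_one, Pi.pow_apply]
    field_simp
    ring
  have hkm : MonotoneOn k (Ioi 0) := by
    refine monotoneOn_of_hasDerivWithinAt_nonneg (convex_Ioi 0)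
      (fun t ht => (hkd t ht).continuousAt.continuousWithinAt)
      (fun t ht => (hkd t (by rwa [interior_Ioi] at ht)).hasDerivWithinAt) fun t ht => ?_
    rw [interior_Ioi] at ht
    exact div_nonneg (mul_nonneg two_pos.le (hMnn t ht)) (pow_nonneg (le_of_lt ht) 3)
  refine ⟨?_, ?_⟩
  · have h : c ≤ k 1 := le_of_tendsto hlg
      (mem_of_superset (Ioo_mem_nhdsGT one_pos) fun s hs => hkm hs.1 (mem_Ioi.2 one_pos) hs.2.le)
    simpa [k] using h
  · linarith [hMnn 1 one_pos]

end Vale.Agent.P219.CH
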